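import Vale.Agent.P248.Step

/-!
P227: support functions, the logarithmic combination and elementary facts about them.
-/

open MeasureTheory Set
open scoped Matrix Pointwise

namespace Vale.Agent.P227

open Vale.Agent.P248

variable {n : ℕ}

/-- The support function. -/
noncomputable def h (K : Set (Fin n → ℝ)) (u : Fin n → ℝ) : ℝ := sSup ((· ⬝ᵥ u) '' K)

/-- The logarithmic combination. -/
def Wl (K L : Set (Fin n → ℝ)) (lam : ℝ) : Set (Fin n → ℝ) :=
  {x | ∀ u, x ⬝ᵥ u ≤ h K u ^ (1 - lam) * h L u ^ lam}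

/-- The midpoint combination. -/
def W (K L : Set (Fin n → ℝ)) : Set (Fin n → ℝ) := {x | ∀ u, x ⬝ᵥ u ≤ Real.sqrt (h K u * h L u)}

/-- Symmetric about the origin, compact and convex, with the origin inside. -/
structure Sym (K : Set (Fin n → ℝ)) : Prop where
  body : Body K
  neg : ∀ x ∈ K, -x ∈ K

lemma continuous_dot (u : Fin n → ℝ) : Continuous fun x : Fin n → ℝ => x ⬝ᵥ u :=
  continuous_finsetSum _ fun i _ => (continuous_apply i).mul continuous_const

lemma bdd_dot {K : Set (Fin n → ℝ)} (hK : IsCompact K) (u : Fin n → ℝ) :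
    BddAbove ((· ⬝ᵥ u) '' K) := (hK.image (continuous_dot u)).bddAbove

lemma le_h {K : Set (Fin n → ℝ)} (hK : IsCompact K) {x : Fin n → ℝ} (hx : x ∈ K) (u : Fin n → ℝ) :
    x ⬝ᵥ u ≤ h K u := le_csSup (bdd_dot hK u) ⟨x, hx, rfl⟩

lemma h_le {K : Set (Fin n → ℝ)} (hne : K.Nonempty) {u : Fin n → ℝ} {c : ℝ}
    (hc : ∀ x ∈ K, x ⬝ᵥ u ≤ c) : h K u ≤ c :=
  csSup_le (hne.image _) (by rintro _ ⟨x, hx, rfl⟩; exact hc x hx)

lemma exists_h {K : Set (Fin n → ℝ)} (hK : IsCompact K) (hne : K.Nonempty) (u : Fin n → ℝ) :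
    ∃ x ∈ K, x ⬝ᵥ u = h K u := by
  obtain ⟨x, hx, e⟩ := (hK.image (continuous_dot u)).sSup_mem (hne.image _)
  exact ⟨x, hx, e⟩

lemma Body.nonempty {K : Set (Fin n → ℝ)} (hK : Body K) : K.Nonempty :=
  ⟨0, interior_subset hK.zero⟩

lemma Body.h_nonneg {K : Set (Fin n → ℝ)} (hK : Body K) (u : Fin n → ℝ) : 0 ≤ h K u := by
  simpa using le_h hK.cpt (interior_subset hK.zero) u

lemma Body.h_pos {K : Set (Fin n → ℝ)} (hK : Body K) {u : Fin n → ℝ} (hu : u ≠ 0) : 0 < h K u := by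
  obtain ⟨r, hr, hb⟩ := hK.symm_mem
  have hn : 0 < ‖u‖ := norm_pos_iff.mpr hu
  have hm : (r / ‖u‖) • u ∈ K := hb (by
    rw [mem_closedBall_zero_iff, norm_smul, Real.norm_of_nonneg (by positivity)]
    rw [div_mul_cancel₀ _ hn.ne'])
  refine lt_of_lt_of_le ?_ (le_h hK.cpt hm u)
  rw [smul_dotProduct, smul_eq_mul]
  refine mul_pos (by positivity) ?_
  obtain ⟨i, hi⟩ := Function.ne_iff.mp hu
  exact Finset.sum_pos' (fun j _ => mul_self_nonneg _)
    ⟨i, Finset.mem_univ i, mul_self_pos.mpr hi⟩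

/-- The ratio of two support functions is bounded. -/
lemma exists_ratio {K L : Set (Fin n → ℝ)} (hK : Body K) (hL : Body L) :
    ∃ C : ℝ, 1 ≤ C ∧ ∀ u, h L u ≤ C * h K u := by
  obtain ⟨r, hr, hb⟩ := hK.symm_mem
  obtain ⟨R, hR, hRb⟩ := hL.cpt.isBounded.exists_pos_norm_le
  refine ⟨max 1 (R / r), le_max_left _ _, fun u => ?_⟩
  refine h_le (Body.nonempty hL) fun x hx => ?_
  have hm : (r / R) • x ∈ K := hb (by
    rw [mem_closedBall_zero_iff, norm_smul, Real.norm_of_nonneg (by positivity)]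
    calc r / R * ‖x‖ ≤ r / R * R := mul_le_mul_of_nonneg_left (hRb x hx) (by positivity)
      _ = r := div_mul_cancel₀ _ hR.ne')
  have h1 := le_h hK.cpt hm u
  rw [smul_dotProduct, smul_eq_mul, div_mul_eq_mul_div, div_le_iff₀ hR] at h1
  have h2 : x ⬝ᵥ u ≤ R / r * h K u := by
    rw [div_mul_eq_mul_div, le_div_iff₀ hr]; linarith
  exact h2.trans (mul_le_mul_of_nonneg_right (le_max_right _ _) (Body.h_nonneg hK u))

lemma Body.h_smul {K : Set (Fin n → ℝ)} (hK : Body K) {c : ℝ} (hc : 0 ≤ c) (u : Fin n → ℝ) :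
    h K (c • u) = c * h K u := by
  obtain ⟨x, hx, e⟩ := exists_h hK.cpt (Body.nonempty hK) u
  refine le_antisymm (h_le (Body.nonempty hK) fun y hy => ?_) ?_
  · rw [dotProduct_smul, smul_eq_mul]; exact mul_le_mul_of_nonneg_left (le_h hK.cpt hy u) hc
  · rw [← e, ← smul_eq_mul, ← dotProduct_smul]; exact le_h hK.cpt hx _

/-- A log-concave combination is compact with the origin inside. -/
lemma body_of_bound {f : (Fin n → ℝ) → ℝ} {K : Set (Fin n → ℝ)} (hK : Body K) {C : ℝ} (hC : 0 < C)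
    (h1 : ∀ u, C⁻¹ * h K u ≤ f u) (h2 : ∀ u, f u ≤ C * h K u) :
    Body {x | ∀ u, x ⬝ᵥ u ≤ f u} := by
  have hcl : IsClosed {x : Fin n → ℝ | ∀ u, x ⬝ᵥ u ≤ f u} := by
    simp only [Set.ofPred_forall]
    exact isClosed_iInter fun u => isClosed_le (continuous_dot u) continuous_const
  refine ⟨?_, ?_, ?_⟩
  · obtain ⟨R, hR, hRb⟩ := hK.cpt.isBounded.exists_pos_norm_le
    refine (isCompact_closedBall (0 : Fin n → ℝ) (C * (n * R))).of_isClosed_subset hcl fun x hx => ?_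
    rw [mem_closedBall_zero_iff, pi_norm_le_iff_of_nonneg (by positivity)]
    intro i
    have hb : ∀ v : ℝ, |v| ≤ 1 → x i * v ≤ C * (n * R) := by
      intro v hv
      have e := hx (Pi.single i v)
      rw [dotProduct_single] at e
      refine e.trans ((h2 _).trans (mul_le_mul_of_nonneg_left (h_le (Body.nonempty hK) fun y hy => ?_) hC.le))
      rw [dotProduct_single]
      refine (le_abs_self _).trans ?_
      rw [abs_mul]
      have h3 : |y i| ≤ R := (norm_le_pi_norm y i).trans (hRb y hy)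
      have h4 : (1 : ℝ) ≤ n := by exact_mod_cast i.pos
      calc |y i| * |v| ≤ R * 1 := mul_le_mul h3 hv (abs_nonneg _) hR.le
        _ ≤ n * R := by nlinarith
    rw [Real.norm_eq_abs, abs_le]
    constructor
    · linarith [hb (-1) (by simp)]
    · linarith [hb 1 (by simp)]
  · intro x hx y hy a b ha hb hab u
    rw [add_dotProduct, smul_dotProduct, smul_dotProduct, smul_eq_mul, smul_eq_mul]
    calc a * (x ⬝ᵥ u) + b * (y ⬝ᵥ u) ≤ a * f u + b * f u :=
          add_le_add (mul_le_mul_of_nonneg_left (hx u) ha) (mul_le_mul_of_nonneg_left (hy u) hb)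
      _ = f u := by rw [← add_mul, hab, one_mul]
  · have hsub : C⁻¹ • K ⊆ {x : Fin n → ℝ | ∀ u, x ⬝ᵥ u ≤ f u} := by
      rintro _ ⟨x, hx, rfl⟩ u
      rw [smul_dotProduct, smul_eq_mul]
      exact (mul_le_mul_of_nonneg_left (le_h hK.cpt hx u) (by positivity)).trans (h1 u)
    refine interior_mono hsub ?_
    rw [interior_smul₀ (inv_ne_zero hC.ne')]
    exact ⟨0, hK.zero, smul_zero _⟩

lemma geo_bounds {a b C : ℝ} (ha : 0 ≤ a) (hb : 0 ≤ b) (hC : 1 ≤ C) (h1 : b ≤ C * a)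
    (h2 : a ≤ C * b) {lam : ℝ} (l0 : 0 ≤ lam) (l1 : lam ≤ 1) :
    C⁻¹ * a ≤ a ^ (1 - lam) * b ^ lam ∧ a ^ (1 - lam) * b ^ lam ≤ C * a := by
  rcases eq_or_lt_of_le ha with rfl | ha
  · have : b = 0 := by linarith
    subst this
    rcases eq_or_ne lam 0 with rfl | hl
    · simp
    · simp [Real.zero_rpow hl]
  have e : a ^ (1 - lam) * b ^ lam = a * (b / a) ^ lam := by
    rw [Real.rpow_sub ha, Real.rpow_one, Real.div_rpow hb ha.le]; ring
  have hq : C⁻¹ ≤ b / a := by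
    rw [le_div_iff₀ ha, inv_mul_le_iff₀ (by linarith)]; exact h2
  have hq' : b / a ≤ C := (div_le_iff₀ ha).mpr h1
  have hC0 : 0 < C⁻¹ := by positivity
  rw [e]
  constructor
  · rw [mul_comm C⁻¹]
    refine mul_le_mul_of_nonneg_left (le_trans ?_ (Real.rpow_le_rpow hC0.le hq l0)) ha.le
    calc C⁻¹ = C⁻¹ ^ (1 : ℝ) := (Real.rpow_one _).symm
      _ ≤ C⁻¹ ^ lam := Real.rpow_le_rpow_of_exponent_ge hC0 (inv_le_one_of_one_le₀ hC) l1
  · rw [mul_comm C]
    refine mul_le_mul_of_nonneg_left ((Real.rpow_le_rpow (by positivity) hq' l0).trans ?_) ha.le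
    calc C ^ lam ≤ C ^ (1 : ℝ) := Real.rpow_le_rpow_of_exponent_le hC l1
      _ = C := Real.rpow_one _

lemma Sym.wl {K L : Set (Fin n → ℝ)} (hK : Sym K) (hL : Sym L) {lam : ℝ} (l0 : 0 ≤ lam)
    (l1 : lam ≤ 1) : Body (Wl K L lam) := by
  obtain ⟨C, hC, hb⟩ := exists_ratio hK.body hL.body
  obtain ⟨D, hD, hd⟩ := exists_ratio hL.body hK.body
  have hM : 1 ≤ max C D := le_max_of_le_left hC
  have key := fun u => geo_bounds (Body.h_nonneg hK.body u) (Body.h_nonneg hL.body u) hM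
    ((hb u).trans (mul_le_mul_of_nonneg_right (le_max_left _ _) (Body.h_nonneg hK.body u)))
    ((hd u).trans (mul_le_mul_of_nonneg_right (le_max_right _ _) (Body.h_nonneg hL.body u))) l0 l1
  exact body_of_bound hK.body (by linarith) (fun u => (key u).1) fun u => (key u).2

lemma w_eq (K L : Set (Fin n → ℝ)) (hK : Body K) (hL : Body L) : W K L = Wl K L (1 / 2) := by
  ext x
  simp only [W, Wl, Set.mem_ofPred_eq]
  refine forall_congr' fun u => ?_
  rw [Real.sqrt_eq_rpow, Real.mul_rpow (Body.h_nonneg hK u) (Body.h_nonneg hL u)]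
  norm_num

lemma Sym.w {K L : Set (Fin n → ℝ)} (hK : Sym K) (hL : Sym L) : Body (W K L) :=
  w_eq K L hK.body hL.body ▸ hK.wl hL (by norm_num) (by norm_num)

/-- From midpoints to all exponents: a continuous midpoint concave function dominates its chord. -/
lemma chord {φ : ℝ → ℝ} (hc : ContinuousOn φ (Icc 0 1))
    (hmid : ∀ a ∈ Icc (0 : ℝ) 1, ∀ b ∈ Icc (0 : ℝ) 1, (φ a + φ b) / 2 ≤ φ ((a + b) / 2))
    {t : ℝ} (ht : t ∈ Icc (0 : ℝ) 1) : (1 - t) * φ 0 + t * φ 1 ≤ φ t := by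
  set ψ := fun s => φ s - ((1 - s) * φ 0 + s * φ 1) with hψ
  have hψc : ContinuousOn ψ (Icc 0 1) := hc.sub (by fun_prop)
  obtain ⟨c, hc1, hcmin⟩ := isCompact_Icc.exists_isMinOn ⟨0, left_mem_Icc.mpr zero_le_one⟩ hψc
  have hmin : ∀ s ∈ Icc (0 : ℝ) 1, ψ c ≤ ψ s := fun s hs => hcmin hs
  suffices 0 ≤ ψ c by have := hmin t ht; simp only [hψ] at this ⊢; linarith
  have h0 : ψ 0 = 0 := by simp [hψ]
  have h1 : ψ 1 = 0 := by simp [hψ]
  by_contra hneg
  push Not at hneg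
  have key : ∀ a ∈ Icc (0 : ℝ) 1, ∀ b ∈ Icc (0 : ℝ) 1, a + b = 2 * c → (ψ a + ψ b) / 2 ≤ ψ c := by
    intro a ha b hb e
    have := hmid a ha b hb
    rw [show (a + b) / 2 = c by linarith] at this
    simp only [hψ]
    have hlin : b = 2 * c - a := by linarith
    subst hlin
    linarith
  rcases le_total c (1 / 2) with h | h
  · have := key 0 (left_mem_Icc.mpr zero_le_one) (2 * c) ⟨by linarith [hc1.1], by linarith⟩ (by ring)
    linarith [hmin (2 * c) ⟨by linarith [hc1.1], by linarith⟩]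
  · have := key 1 (right_mem_Icc.mpr zero_le_one) (2 * c - 1) ⟨by linarith, by linarith [hc1.2]⟩
      (by ring)
    linarith [hmin (2 * c - 1) ⟨by linarith, by linarith [hc1.2]⟩]

end Vale.Agent.P227
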