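import Vale.Agent.P227.Planar

/-!
P227: adding one coordinate of reflection symmetry, and all exponents.

The slices of a body symmetric in the last coordinate satisfy a multiplicative Prekopa-Leindler
hypothesis as soon as the inequality holds in one dimension less.
-/

open MeasureTheory Set Filter Topology
open scoped Matrix Pointwise ENNReal

namespace Vale.Agent.P227

open Vale.Agent.P248

variable {n : ℕ}

/-- The reflection in one coordinate hyperplane. -/
def fl (i : Fin n) (x : Fin n → ℝ) : Fin n → ℝ := Function.update x i (-x i)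

/-- Symmetric in all coordinate hyperplanes but the first two. -/
def Flip (K : Set (Fin n → ℝ)) : Prop :=
  ∀ x ∈ K, ∀ i : Fin n, 2 ≤ i.val → fl i x ∈ K

lemma fl_fl (i : Fin n) (x : Fin n → ℝ) : fl i (fl i x) = x := by
  funext j
  by_cases h : j = i
  · subst h; simp [fl]
  · simp [fl, Function.update_of_ne h]

lemma fl_dot (i : Fin n) (x u : Fin n → ℝ) : fl i x ⬝ᵥ u = x ⬝ᵥ fl i u := by
  refine Finset.sum_congr rfl fun j _ => ?_
  by_cases h : j = i
  · subst h; simp [fl]
  · simp [fl, Function.update_of_ne h]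

lemma Flip.h_fl {K : Set (Fin n → ℝ)} (hF : Flip K) (hK : Body K) {i : Fin n} (hi : 2 ≤ i.val)
    (u : Fin n → ℝ) : h K (fl i u) = h K u := by
  have le : ∀ v, h K (fl i v) ≤ h K v := fun v => h_le (Body.nonempty hK) fun x hx => by
    rw [← fl_dot]; exact le_h hK.cpt (hF x hx i hi) v
  refine le_antisymm (le u) ?_
  have := le (fl i u)
  rwa [fl_fl] at this

lemma h_neg {K : Set (Fin n → ℝ)} (hK : Sym K) (v : Fin n → ℝ) : h K (-v) = h K v := by
  refine le_antisymm (h_le (Body.nonempty hK.body) fun y hy => ?_)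
    (h_le (Body.nonempty hK.body) fun y hy => ?_)
  · rw [dotProduct_neg, ← neg_dotProduct]; exact le_h hK.body.cpt (hK.neg y hy) _
  · rw [← neg_dotProduct_neg]; exact le_h hK.body.cpt (hK.neg y hy) _

lemma sym_wl {K L : Set (Fin n → ℝ)} (hK : Sym K) (hL : Sym L) {lam : ℝ} (l0 : 0 ≤ lam)
    (l1 : lam ≤ 1) : Sym (Wl K L lam) := by
  refine ⟨hK.wl hL l0 l1, fun x hx u => ?_⟩
  have := hx (-u)
  rwa [dotProduct_neg, h_neg hK, h_neg hL, ← neg_dotProduct] at this

lemma Flip.wl {K L : Set (Fin n → ℝ)} (fK : Flip K) (fL : Flip L) (hK : Body K) (hL : Body L)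
    (lam : ℝ) : Flip (Wl K L lam) := by
  intro x hx i hi u
  have := hx (fl i u)
  rwa [fK.h_fl hK hi, fL.h_fl hL hi, ← fl_dot] at this

lemma sym_of_interior {K : Set (Fin n → ℝ)} (hc : IsCompact K) (hv : Convex ℝ K)
    (hneg : ∀ x ∈ K, -x ∈ K) (hne : (interior K).Nonempty) : Sym K := by
  obtain ⟨q, hq⟩ := hne
  have hsub : -K ⊆ K := fun y hy => by simpa using hneg _ hy
  have hq' : -q ∈ interior K := by
    have : -q ∈ interior (-K) := by
      refine preimage_interior_subset_interior_preimage (f := fun y : Fin n → ℝ => -y)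
        continuous_neg ?_
      show -(-q) ∈ interior K
      rwa [neg_neg]
    exact interior_mono hsub this
  have h0 := hv.interior hq hq' (a := 1 / 2) (b := 1 / 2) (by norm_num) (by norm_num) (by norm_num)
  simp at h0
  exact ⟨⟨hc, hv, h0⟩, hneg⟩

/-- The point over `q` at height `a`. -/
def pt (a : ℝ) (q : Fin n → ℝ) : Fin (n + 1) → ℝ := (Fin.last n).insertNth a q

/-- The slice at height `a`. -/
def sl (K : Set (Fin (n + 1) → ℝ)) (a : ℝ) : Set (Fin n → ℝ) := {q | pt a q ∈ K}

lemma pt_last (a : ℝ) (q : Fin n → ℝ) : pt a q (Fin.last n) = a := by simp [pt]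

lemma pt_cast (a : ℝ) (q : Fin n → ℝ) (k : Fin n) : pt a q k.castSucc = q k := by
  rw [pt, ← Fin.succAbove_last_apply, Fin.insertNth_apply_succAbove]

lemma pt_neg (a : ℝ) (q : Fin n → ℝ) : -pt a q = pt (-a) (-q) := by
  funext j
  refine Fin.lastCases ?_ (fun k => ?_) j
  · simp [pt_last]
  · simp [pt_cast]

lemma fl_last (a : ℝ) (q : Fin n → ℝ) : fl (Fin.last n) (pt a q) = pt (-a) q := by
  funext j
  refine Fin.lastCases ?_ (fun k => ?_) j
  · simp [fl, pt_last]
  · rw [fl, Function.update_of_ne (Fin.castSucc_lt_last k).ne, pt_cast, pt_cast]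

lemma fl_cast (a : ℝ) (q : Fin n → ℝ) (i : Fin n) : fl i.castSucc (pt a q) = pt a (fl i q) := by
  funext j
  refine Fin.lastCases ?_ (fun k => ?_) j
  · rw [fl, Function.update_of_ne (Fin.castSucc_lt_last i).ne', pt_last, pt_last]
  · by_cases hk : k = i
    · subst hk; simp [fl, pt_cast]
    · rw [fl, Function.update_of_ne (fun e => hk (Fin.castSucc_injective n e)), pt_cast, pt_cast, fl,
        Function.update_of_ne hk]

lemma pt_dot (a p : ℝ) (q v : Fin n → ℝ) : pt a q ⬝ᵥ pt p v = a * p + q ⬝ᵥ v := by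
  simp only [dotProduct, Fin.sum_univ_castSucc, pt_last, pt_cast]
  ring

lemma exists_pt (u : Fin (n + 1) → ℝ) : ∃ p v, u = pt p v := by
  refine ⟨u (Fin.last n), fun k => u k.castSucc, ?_⟩
  funext j
  refine Fin.lastCases ?_ (fun k => ?_) j
  · rw [pt_last]
  · rw [pt_cast]

lemma continuous_pt (a : ℝ) : Continuous (pt (n := n) a) := continuous_insertNth _ a

lemma compact_sl {K : Set (Fin (n + 1) → ℝ)} (hK : IsCompact K) (a : ℝ) : IsCompact (sl K a) :=
  (hK.image (f := fun z k => z (Fin.castSucc k)) (by fun_prop)).of_isClosed_subset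
    (hK.isClosed.preimage (continuous_pt a)) fun q hq => ⟨_, hq, funext fun k => pt_cast a q k⟩

lemma sym_sl {K : Set (Fin (n + 1) → ℝ)} (hK : Sym K) (fK : Flip K) (hn : 2 ≤ n) {a : ℝ}
    (hv : volume (sl K a) ≠ 0) : Sym (sl K a) := by
  have hconv : Convex ℝ (sl K a) := by
    intro x hx y hy s t hs ht hst
    show pt a _ ∈ K
    convert hK.body.cvx hx hy hs ht hst using 1
    funext j
    refine Fin.lastCases ?_ (fun k => ?_) j
    · simp [pt_last, ← add_mul, hst]
    · simp [pt_cast]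
  refine sym_of_interior (compact_sl hK.body.cpt a) hconv (fun q hq => ?_) ?_
  · have h1 := hK.neg _ (fK _ hq (Fin.last n) (by simpa using hn))
    rwa [fl_last, pt_neg, neg_neg] at h1
  · by_contra he
    rw [not_nonempty_iff_eq_empty] at he
    refine hv (measure_mono_null ?_ (hconv.addHaar_frontier volume))
    intro q hq
    exact ⟨subset_closure hq, by simp [he]⟩

lemma flip_sl {K : Set (Fin (n + 1) → ℝ)} (fK : Flip K) (a : ℝ) : Flip (sl K a) := by
  intro q hq i hi
  show pt a _ ∈ K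
  rw [← fl_cast]
  exact fK _ hq _ (by simpa using hi)

/-- The logarithmic combination of two slices lies in the slice at the geometric mean height. -/
lemma sl_subset {K L : Set (Fin (n + 1) → ℝ)} (hK : Sym K) (hL : Sym L) (fK : Flip K)
    (fL : Flip L) (hn : 2 ≤ n) {a b : ℝ} (ha : 0 ≤ a) (hb : 0 ≤ b) (hA : Sym (sl K a))
    (hB : Sym (sl L b)) : W (sl K a) (sl L b) ⊆ sl (W K L) (Real.sqrt (a * b)) := by
  intro q hq u
  obtain ⟨p, v, rfl⟩ := exists_pt u
  rw [pt_dot]
  have low : ∀ {X : Set (Fin (n + 1) → ℝ)}, Sym X → Flip X → ∀ {c : ℝ}, Sym (sl X c) → 0 ≤ c →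
      |p| * c + h (sl X c) v ≤ h X (pt p v) := by
    intro X hX fX c hC hc
    obtain ⟨y, hy, e⟩ := exists_h hC.body.cpt (Body.nonempty hC.body) v
    rw [← e]
    have h1 := le_h hX.body.cpt hy (pt p v)
    have h2 := le_h hX.body.cpt (fX _ hy (Fin.last n) (by simpa using hn)) (pt p v)
    rw [fl_last, pt_dot] at h2
    rw [pt_dot] at h1
    rcases le_total 0 p with hp | hp
    · rw [abs_of_nonneg hp]; linarith
    · rw [abs_of_nonpos hp]; linarith
  have e1 := low hK fK hA ha
  have e2 := low hL fL hB hb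
  have n1 := Body.h_nonneg hA.body v
  have n2 := Body.h_nonneg hB.body v
  refine le_trans (add_le_add (a := Real.sqrt (a * b) * p)
    (mul_le_mul_of_nonneg_left (le_abs_self p) (Real.sqrt_nonneg _)) (hq v)) ?_
  refine le_trans ?_ (Real.sqrt_le_sqrt (mul_le_mul e1 e2 (by positivity) (Body.h_nonneg hK.body _)))
  refine Real.le_sqrt_of_sq_le ?_
  obtain ⟨α, hα, rfl⟩ : ∃ α, 0 ≤ α ∧ α ^ 2 = a := ⟨_, Real.sqrt_nonneg _, Real.sq_sqrt ha⟩
  obtain ⟨β, hβ, rfl⟩ : ∃ β, 0 ≤ β ∧ β ^ 2 = b := ⟨_, Real.sqrt_nonneg _, Real.sq_sqrt hb⟩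
  obtain ⟨γ, hγ, eγ⟩ : ∃ γ, 0 ≤ γ ∧ γ ^ 2 = h (sl K (α ^ 2)) v :=
    ⟨_, Real.sqrt_nonneg _, Real.sq_sqrt n1⟩
  obtain ⟨δ, hδ, eδ⟩ : ∃ δ, 0 ≤ δ ∧ δ ^ 2 = h (sl L (β ^ 2)) v :=
    ⟨_, Real.sqrt_nonneg _, Real.sq_sqrt n2⟩
  rw [← eγ, ← eδ, ← mul_pow, ← mul_pow, Real.sqrt_sq (by positivity), Real.sqrt_sq (by positivity)]
  nlinarith [mul_nonneg (abs_nonneg p) (sq_nonneg (α * δ - β * γ))]

/-- The volume of the slices. -/
noncomputable def sv (K : Set (Fin (n + 1) → ℝ)) (a : ℝ) : ℝ≥0∞ := volume (sl K a)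

lemma measurable_sv {K : Set (Fin (n + 1) → ℝ)} (hK : IsCompact K) : Measurable (sv K) :=
  measurable_measure_prodMk_left (hK.measurableSet.preimage (measurable_insertNth (Fin.last n)))

lemma vol_half {K : Set (Fin (n + 1) → ℝ)} (hK : IsCompact K) (hneg : ∀ x ∈ K, -x ∈ K) :
    volume K = 2 * ∫⁻ a in Ioi (0 : ℝ), sv K a := by
  have he : ∀ a, sv K (-a) = sv K a := by
    intro a
    show volume _ = volume _
    rw [← Measure.measure_neg volume (sl K a)]
    congr 1
    ext q
    show pt (-a) q ∈ K ↔ pt a (-q) ∈ K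
    constructor
    · intro hq; have := hneg _ hq; rwa [pt_neg, neg_neg] at this
    · intro hq; have := hneg _ hq; rwa [pt_neg, neg_neg] at this
  have hs : volume K = ∫⁻ a, sv K a := vol_slice (Fin.last n) hK.measurableSet
  rw [hs, two_mul, ← lintegral_add_compl _ measurableSet_Ioi (A := Ioi (0 : ℝ)), compl_Ioi]
  congr 1
  rw [← setLIntegral_congr Iio_ae_eq_Iic,
    ← (Measure.measurePreserving_neg volume).setLIntegral_comp_preimage measurableSet_Ioi
      (measurable_sv hK)]
  simp [he]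

lemma subst_exp {f : ℝ → ℝ≥0∞} : ∫⁻ a in Ioi (0 : ℝ), f a =
    ∫⁻ x, ENNReal.ofReal (Real.exp x) * f (Real.exp x) := by
  rw [← Real.range_exp, ← image_univ, lintegral_image_eq_lintegral_abs_deriv_mul MeasurableSet.univ
    (fun x _ => (Real.hasDerivAt_exp x).hasDerivWithinAt) Real.exp_injective.injOn]
  simp [abs_of_pos (Real.exp_pos _)]

/-- The midpoint inequality in every dimension. -/
theorem midpoint : ∀ (m : ℕ) {K L : Set (Fin (m + 2) → ℝ)}, Sym K → Sym L → Flip K → Flip L →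
    volume.real K * volume.real L ≤ volume.real (W K L) ^ 2 := by
  intro m
  induction m with
  | zero => intro K L hK hL _ _; exact planar hK hL
  | succ m ih =>
    intro K L hK hL fK fL
    have hn : 2 ≤ m + 2 := by omega
    have hW : Sym (W K L) := by
      rw [w_eq K L hK.body hL.body]; exact sym_wl hK hL (by norm_num) (by norm_num)
    have key : ∀ a b : ℝ, 0 < a → 0 < b →
        sv K a * sv L b ≤ sv (W K L) (Real.sqrt (a * b)) ^ 2 := by
      intro a b ha hb
      by_cases hA0 : sv K a = 0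
      · simp [hA0]
      by_cases hB0 : sv L b = 0
      · simp [hB0]
      have hA : Sym (sl K a) := sym_sl hK fK hn hA0
      have hB : Sym (sl L b) := sym_sl hL fL hn hB0
      have h1 := ih hA hB (flip_sl fK a) (flip_sl fL b)
      have h2 : sv K a * sv L b ≤ volume (W (sl K a) (sl L b)) ^ 2 := by
        change volume (sl K a) * volume (sl L b) ≤ _
        rw [← ENNReal.toReal_le_toReal (ENNReal.mul_ne_top hA.body.cpt.measure_ne_top
          hB.body.cpt.measure_ne_top) (ENNReal.pow_ne_top (Sym.w hA hB).cpt.measure_ne_top),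
          ENNReal.toReal_mul, ENNReal.toReal_pow]
        exact h1
      exact h2.trans (pow_le_pow_left'
        (measure_mono (sl_subset hK hL fK fL hn ha.le hb.le hA hB)) 2)
    have hm : ∀ {X : Set (Fin (m + 1 + 2) → ℝ)}, IsCompact X →
        Measurable fun x => ENNReal.ofReal (Real.exp x) * sv X (Real.exp x) := fun hX =>
      (ENNReal.measurable_ofReal.comp Real.measurable_exp).mul
        ((measurable_sv hX).comp Real.measurable_exp)
    have pl := Vale.Agent.P074.pl_one (hm hK.body.cpt) (hm hL.body.cpt) (hm hW.body.cpt)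
      fun x y => by
        have e : Real.exp ((x + y) / 2) = Real.sqrt (Real.exp x * Real.exp y) := by
          rw [← Real.exp_add, Real.exp_half]
        rw [mul_pow, mul_mul_mul_comm, e, ← ENNReal.ofReal_mul (Real.exp_pos _).le,
          ← ENNReal.ofReal_pow (Real.sqrt_nonneg _), Real.sq_sqrt (by positivity)]
        exact mul_le_mul_right (key _ _ (Real.exp_pos _) (Real.exp_pos _)) _
    rw [← subst_exp, ← subst_exp, ← subst_exp] at pl
    have h4 : volume K * volume L ≤ volume (W K L) ^ 2 := by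
      rw [vol_half hK.body.cpt hK.neg, vol_half hL.body.cpt hL.neg, vol_half hW.body.cpt hW.neg,
        mul_mul_mul_comm, mul_pow, ← sq]
      exact mul_le_mul_right pl _
    have h5 := ENNReal.toReal_mono (ENNReal.pow_ne_top hW.body.cpt.measure_ne_top) h4
    rwa [ENNReal.toReal_mul, ENNReal.toReal_pow] at h5

lemma wl_mid {K L : Set (Fin n → ℝ)} (hK : Sym K) (hL : Sym L) {s r : ℝ} (hs : s ∈ Icc (0 : ℝ) 1)
    (hr : r ∈ Icc (0 : ℝ) 1) : W (Wl K L s) (Wl K L r) ⊆ Wl K L ((s + r) / 2) := by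
  intro x hx u
  have a0 := Body.h_nonneg hK.body u
  have b0 := Body.h_nonneg hL.body u
  rcases eq_or_ne u 0 with rfl | hu
  · rw [dotProduct_zero]; positivity
  have ha := Body.h_pos hK.body hu
  have hb := Body.h_pos hL.body hu
  have hh : ∀ {t : ℝ}, t ∈ Icc (0 : ℝ) 1 → h (Wl K L t) u ≤ h K u ^ (1 - t) * h L u ^ t :=
    fun ht => h_le (Body.nonempty (hK.wl hL ht.1 ht.2)) fun y hy => hy u
  refine (hx u).trans ((Real.sqrt_le_sqrt (mul_le_mul (hh hs) (hh hr)
    (Body.h_nonneg (hK.wl hL hr.1 hr.2) u) (by positivity))).trans (le_of_eq ?_))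
  rw [Real.sqrt_eq_rpow, mul_mul_mul_comm, ← Real.rpow_add ha, ← Real.rpow_add hb,
    Real.mul_rpow (by positivity) (by positivity), ← Real.rpow_mul ha.le, ← Real.rpow_mul hb.le]
  congr 2 <;> ring

lemma wl_scale {K L : Set (Fin n → ℝ)} (hK : Sym K) (hL : Sym L) {M : ℝ} (hM : 1 ≤ M)
    (hKL : ∀ u, h L u ≤ M * h K u) (hLK : ∀ u, h K u ≤ M * h L u) (s t : ℝ) :
    Wl K L s ⊆ M ^ |s - t| • Wl K L t := by
  have hM0 : 0 < M := by linarith
  have hc : 0 < M ^ |s - t| := Real.rpow_pos_of_pos hM0 _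
  intro x hx
  rw [Set.mem_smul_set_iff_inv_smul_mem₀ hc.ne']
  intro u
  rw [smul_dotProduct, smul_eq_mul, inv_mul_le_iff₀ hc]
  rcases eq_or_ne u 0 with rfl | hu
  · rw [dotProduct_zero]
    have := Body.h_nonneg hK.body (0 : Fin n → ℝ)
    have := Body.h_nonneg hL.body (0 : Fin n → ℝ)
    positivity
  have ha := Body.h_pos hK.body hu
  have hb := Body.h_pos hL.body hu
  refine (hx u).trans ?_
  set a := h K u
  set b := h L u
  have e : a ^ (1 - s) * b ^ s = (b / a) ^ (s - t) * (a ^ (1 - t) * b ^ t) := by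
    rw [Real.div_rpow hb.le ha.le, Real.rpow_sub hb, Real.rpow_sub ha, Real.rpow_sub ha,
      Real.rpow_sub ha, Real.rpow_one]
    field_simp
  rw [e]
  refine mul_le_mul_of_nonneg_right ?_ (by positivity)
  have h1 : b / a ≤ M := (div_le_iff₀ ha).mpr (hKL u)
  have h2 : M⁻¹ ≤ b / a := by rw [le_div_iff₀ ha, inv_mul_le_iff₀ hM0]; exact hLK u
  rcases le_total 0 (s - t) with hd | hd
  · rw [abs_of_nonneg hd]; exact Real.rpow_le_rpow (by positivity) h1 hd
  · rw [abs_of_nonpos hd, Real.rpow_neg hM0.le, ← Real.inv_rpow hM0.le]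
    exact Real.rpow_le_rpow_of_nonpos (by positivity) h2 hd

/-- The inequality for every exponent. -/
theorem log_bm {m : ℕ} {K L : Set (Fin (m + 2) → ℝ)} (hK : Sym K) (hL : Sym L) (fK : Flip K)
    (fL : Flip L) {lam : ℝ} (hl : lam ∈ Icc (0 : ℝ) 1) :
    volume.real K ^ (1 - lam) * volume.real L ^ lam ≤ volume.real (Wl K L lam) := by
  obtain ⟨C, hC, hb⟩ := exists_ratio hK.body hL.body
  obtain ⟨D, hD, hd⟩ := exists_ratio hL.body hK.body
  set M := max C D
  have hM : 1 ≤ M := le_max_of_le_left hC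
  have hM0 : 0 < M := by linarith
  have hKL : ∀ u, h L u ≤ M * h K u := fun u => (hb u).trans
    (mul_le_mul_of_nonneg_right (le_max_left _ _) (Body.h_nonneg hK.body u))
  have hLK : ∀ u, h K u ≤ M * h L u := fun u => (hd u).trans
    (mul_le_mul_of_nonneg_right (le_max_right _ _) (Body.h_nonneg hL.body u))
  set φ := fun t => Real.log (volume.real (Wl K L t))
  have hbody : ∀ t ∈ Icc (0 : ℝ) 1, Body (Wl K L t) := fun t ht => hK.wl hL ht.1 ht.2
  have hpos : ∀ t ∈ Icc (0 : ℝ) 1, 0 < volume.real (Wl K L t) := fun t ht => (hbody t ht).vol_pos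
  have hc : ContinuousOn φ (Icc 0 1) := by
    refine (LipschitzOnWith.of_le_add_mul (K := Real.toNNReal ((m + 2 : ℕ) * Real.log M))
      fun s hs t ht => ?_).continuousOn
    have hm := measureReal_mono (μ := volume) (wl_scale hK hL hM hKL hLK s t)
      (((hbody t ht).cpt.smul _).measure_ne_top)
    have hc0 : 0 < M ^ |s - t| := Real.rpow_pos_of_pos hM0 _
    rw [measureReal_def (s := _ • _), Measure.addHaar_smul_of_nonneg _ hc0.le,
      ENNReal.toReal_mul, ENNReal.toReal_ofReal (by positivity), Module.finrank_fin_fun] at hm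
    change _ ≤ _ * volume.real (Wl K L t) at hm
    have := Real.log_le_log (hpos s hs) hm
    rw [Real.log_mul (by positivity) (hpos t ht).ne', Real.log_pow, Real.log_rpow hM0] at this
    rw [Real.coe_toNNReal _ (mul_nonneg (Nat.cast_nonneg _) (Real.log_nonneg hM)), Real.dist_eq]
    show φ s ≤ φ t + _
    simp only [φ]
    change Real.log _ ≤ _ + Real.log (volume.real (Wl K L t)) at this
    linarith
  have hmid : ∀ s ∈ Icc (0 : ℝ) 1, ∀ r ∈ Icc (0 : ℝ) 1, (φ s + φ r) / 2 ≤ φ ((s + r) / 2) := by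
    intro s hs r hr
    have ha := sym_wl hK hL hs.1 hs.2
    have hb := sym_wl hK hL hr.1 hr.2
    have h1 := midpoint m ha hb (fK.wl fL hK.body hL.body s) (fK.wl fL hK.body hL.body r)
    have hsr : (s + r) / 2 ∈ Icc (0 : ℝ) 1 :=
      ⟨by linarith [hs.1, hr.1], by linarith [hs.2, hr.2]⟩
    have h2 := measureReal_mono (μ := volume) (wl_mid hK hL hs hr) (hbody _ hsr).cpt.measure_ne_top
    have h3 := h1.trans (pow_le_pow_left₀ measureReal_nonneg h2 2)
    have := Real.log_le_log (mul_pos (hpos s hs) (hpos r hr)) h3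
    rw [Real.log_mul (hpos s hs).ne' (hpos r hr).ne', Real.log_pow] at this
    push_cast at this
    simp only [φ]
    linarith
  have hch := chord hc hmid hl
  have h0 : (0 : ℝ) ∈ Icc (0 : ℝ) 1 := left_mem_Icc.mpr zero_le_one
  have h1 : (1 : ℝ) ∈ Icc (0 : ℝ) 1 := right_mem_Icc.mpr zero_le_one
  have eK : Real.log (volume.real K) ≤ φ 0 := Real.log_le_log hK.body.vol_pos
    (measureReal_mono (fun x hx u => by simpa using le_h hK.body.cpt hx u)
      (hbody 0 h0).cpt.measure_ne_top)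
  have eL : Real.log (volume.real L) ≤ φ 1 := Real.log_le_log hL.body.vol_pos
    (measureReal_mono (fun x hx u => by simpa using le_h hL.body.cpt hx u)
      (hbody 1 h1).cpt.measure_ne_top)
  rw [Real.rpow_def_of_pos hK.body.vol_pos, Real.rpow_def_of_pos hL.body.vol_pos, ← Real.exp_add,
    ← Real.exp_log (hpos lam hl)]
  refine Real.exp_le_exp.mpr ?_
  have := mul_le_mul_of_nonneg_left eK (by linarith [hl.2] : 0 ≤ 1 - lam)
  have := mul_le_mul_of_nonneg_left eL hl.1
  change _ ≤ φ lam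
  linarith

end Vale.Agent.P227
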