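import Vale.Agent.P227.Basic
import Vale.Agent.P074.PL

/-!
P227: the planar logarithmic Brunn-Minkowski inequality at the midpoint.

For a polygon cut out by finitely many strips the logarithm of the area is concave in the widths, so
it has a supergradient `q`. Two symmetric bodies with a common width satisfy a linear Brunn-Minkowski
inequality by slicing. Hence every ratio `t` of widths satisfies `V t^2 - V (q k) t + |K| <= 0`, and
the average of the ratios is the midpoint of the roots.
-/

open MeasureTheory Set Filter Topology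
open scoped Matrix Pointwise

namespace Vale.Agent.P227

open Vale.Agent.P248

variable {U : Finset (Fin 2 → ℝ)}

/-- The polygon with given half widths. -/
def strip (k : U → ℝ) : Set (Fin 2 → ℝ) := {x | ∀ u : U, |x ⬝ᵥ (u : Fin 2 → ℝ)| ≤ k u}

/-- Its area. -/
noncomputable def area (k : U → ℝ) : ℝ := volume.real (strip k)

/-- Positive width data. -/
def pos (U : Finset (Fin 2 → ℝ)) : Set (U → ℝ) := {k | ∀ u, 0 < k u}

lemma closed_strip (k : U → ℝ) : IsClosed (strip k) := by
  simp only [strip, Set.ofPred_forall]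
  exact isClosed_iInter fun u => isClosed_le (continuous_dot _).abs continuous_const

lemma convex_strip (k : U → ℝ) : Convex ℝ (strip k) := by
  intro x hx y hy a b ha hb hab u
  rw [add_dotProduct, smul_dotProduct, smul_dotProduct, smul_eq_mul, smul_eq_mul]
  calc |a * (x ⬝ᵥ (u : Fin 2 → ℝ)) + b * (y ⬝ᵥ (u : Fin 2 → ℝ))|
      ≤ a * |x ⬝ᵥ (u : Fin 2 → ℝ)| + b * |y ⬝ᵥ (u : Fin 2 → ℝ)| := by
        refine (abs_add_le _ _).trans (le_of_eq ?_)
        rw [abs_mul, abs_mul, abs_of_nonneg ha, abs_of_nonneg hb]
    _ ≤ a * k u + b * k u := add_le_add (mul_le_mul_of_nonneg_left (hx u) ha)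
        (mul_le_mul_of_nonneg_left (hy u) hb)
    _ = k u := by rw [← add_mul, hab, one_mul]

variable (hU : ∀ i : Fin 2, Pi.single i 1 ∈ U)
include hU

lemma compact_strip (k : U → ℝ) : IsCompact (strip k) := by
  refine (isCompact_univ_pi fun i => isCompact_Icc (a := -k ⟨_, hU i⟩) (b := k ⟨_, hU i⟩)).of_isClosed_subset
    (closed_strip k) fun x hx i _ => ?_
  have := hx ⟨_, hU i⟩
  rw [dotProduct_single, mul_one] at this
  exact abs_le.mp this

lemma body_strip {k : U → ℝ} (hk : k ∈ pos U) : Body (strip k) := by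
  refine ⟨compact_strip hU k, convex_strip k, mem_interior.mpr
    ⟨{x | ∀ u : U, |x ⬝ᵥ (u : Fin 2 → ℝ)| < k u}, fun x hx u => (hx u).le, ?_, ?_⟩⟩
  · simp only [Set.ofPred_forall]
    exact isOpen_iInter_of_finite fun u => isOpen_lt (continuous_dot _).abs continuous_const
  · intro u; simp [hk u]

lemma area_mono {k l : U → ℝ} (hkl : ∀ u, k u ≤ l u) : area k ≤ area l :=
  measureReal_mono (fun _ hx u => (hx u).trans (hkl u)) (compact_strip hU l).measure_ne_top

omit hU in
lemma area_smul {c : ℝ} (hc : 0 < c) (k : U → ℝ) : area (c • k) = c ^ 2 * area k := by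
  have : strip (c • k) = c • strip k := by
    ext x
    rw [Set.mem_smul_set_iff_inv_smul_mem₀ hc.ne']
    refine forall_congr' fun u => ?_
    rw [smul_dotProduct, smul_eq_mul, abs_mul, abs_inv, abs_of_pos hc, inv_mul_le_iff₀ hc]
    simp
  rw [area, this, measureReal_def, Measure.addHaar_smul_of_nonneg _ hc.le, ENNReal.toReal_mul,
    ENNReal.toReal_ofReal (by positivity), Module.finrank_fin_fun]
  rfl

lemma area_mid (k l : U → ℝ) : area k * area l ≤ area ((1 / 2 : ℝ) • (k + l)) ^ 2 := by
  have hc := compact_strip hU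
  have h := Vale.Agent.P074.pl_pi 2 (f := (strip k).indicator 1) (g := (strip l).indicator 1)
    (h := (strip ((1 / 2 : ℝ) • (k + l))).indicator 1)
    (measurable_one.indicator (closed_strip k).measurableSet)
    (measurable_one.indicator (closed_strip l).measurableSet)
    (measurable_one.indicator (closed_strip _).measurableSet) (fun x y => by
      by_cases hx : x ∈ strip k
      · by_cases hy : y ∈ strip l
        · have : (1 / 2 : ℝ) • (x + y) ∈ strip ((1 / 2 : ℝ) • (k + l)) := fun u => by
            rw [smul_dotProduct, add_dotProduct, smul_eq_mul, abs_mul]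
            simp only [Pi.smul_apply, Pi.add_apply, smul_eq_mul]
            rw [abs_of_nonneg (by norm_num : (0 : ℝ) ≤ 1 / 2)]
            exact mul_le_mul_of_nonneg_left
              ((abs_add_le _ _).trans (add_le_add (hx u) (hy u))) (by norm_num)
          rw [Set.indicator_of_mem hx, Set.indicator_of_mem hy, Set.indicator_of_mem this]
          simp
        · simp [hy]
      · simp [hx])
  rw [lintegral_indicator_one (closed_strip k).measurableSet,
    lintegral_indicator_one (closed_strip l).measurableSet,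
    lintegral_indicator_one (closed_strip _).measurableSet] at h
  have h2 := ENNReal.toReal_mono (ENNReal.pow_ne_top (hc _).measure_ne_top) h
  rwa [ENNReal.toReal_mul, ENNReal.toReal_pow] at h2

lemma area_pos {k : U → ℝ} (hk : k ∈ pos U) : 0 < area k := (body_strip hU hk).vol_pos

omit hU in
lemma isOpen_pos : IsOpen (pos U) := by
  simp only [pos, Set.ofPred_forall]
  exact isOpen_iInter_of_finite fun u => isOpen_lt continuous_const (continuous_apply u)

omit hU in
lemma convex_pos : Convex ℝ (pos U) := by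
  intro x hx y hy a b ha hb hab u
  simp only [Pi.add_apply, Pi.smul_apply, smul_eq_mul]
  rcases eq_or_lt_of_le ha with rfl | ha
  · simp only [zero_add] at hab; subst hab; simpa using hy u
  · linarith [mul_pos ha (hx u), mul_nonneg hb (hy u).le]

lemma area_continuousAt {g : U → ℝ} (hg : g ∈ pos U) : ContinuousAt area g := by
  rw [ContinuousAt, Metric.tendsto_nhds]
  intro ε hε
  have hA := area_pos hU hg
  obtain ⟨δ, hδ, hδ1, hδε⟩ : ∃ δ > 0, δ ≤ (1 / 2 : ℝ) ∧ 3 * δ * area g < ε := by
    refine ⟨min (1 / 2) (ε / (4 * area g)), lt_min (by norm_num) (by positivity), min_le_left _ _, ?_⟩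
    have : min (1 / 2) (ε / (4 * area g)) ≤ ε / (4 * area g) := min_le_right _ _
    rw [le_div_iff₀ (by positivity)] at this
    nlinarith
  have hev : ∀ᶠ k in 𝓝 g, ∀ u, (1 - δ) * g u ≤ k u ∧ k u ≤ (1 + δ) * g u :=
    eventually_all.mpr fun u => ((continuous_apply u).tendsto g).eventually
      (Icc_mem_nhds (by nlinarith [hg u] : (1 - δ) * g u < g u)
        (by nlinarith [hg u] : g u < (1 + δ) * g u))
  filter_upwards [hev] with k hk
  have e1 := area_mono hU (k := (1 - δ) • g) (l := k) fun u => (hk u).1
  have e2 := area_mono hU (k := k) (l := (1 + δ) • g) fun u => (hk u).2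
  rw [area_smul (by linarith)] at e1 e2
  rw [Real.dist_eq, abs_lt]
  constructor <;> nlinarith [mul_pos hδ hA]

lemma logArea_continuousOn : ContinuousOn (fun k => Real.log (area k)) (pos U) := fun _ hk =>
  ((area_continuousAt hU hk).log (area_pos hU hk).ne').continuousWithinAt

lemma logArea_concave : ConcaveOn ℝ (pos U) fun k => Real.log (area k) := by
  refine ⟨convex_pos, fun x hx y hy a b ha hb hab => ?_⟩
  set γ := fun t : ℝ => (1 - t) • x + t • y
  have hmem : ∀ t ∈ Icc (0 : ℝ) 1, γ t ∈ pos U := fun t ht =>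
    convex_pos hx hy (by linarith [ht.2]) ht.1 (by ring)
  have hc : ContinuousOn (fun t => Real.log (area (γ t))) (Icc 0 1) :=
    (logArea_continuousOn hU).comp (by fun_prop : Continuous γ).continuousOn hmem
  have hm : ∀ s ∈ Icc (0 : ℝ) 1, ∀ r ∈ Icc (0 : ℝ) 1,
      (Real.log (area (γ s)) + Real.log (area (γ r))) / 2 ≤ Real.log (area (γ ((s + r) / 2))) := by
    intro s hs r hr
    have e : γ ((s + r) / 2) = (1 / 2 : ℝ) • (γ s + γ r) := by
      funext u; simp [γ]; ring
    have p1 := area_pos hU (hmem s hs)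
    have p2 := area_pos hU (hmem r hr)
    have h := area_mid hU (γ s) (γ r)
    rw [← e] at h
    have := Real.log_le_log (mul_pos p1 p2) h
    rw [Real.log_mul p1.ne' p2.ne', Real.log_pow] at this
    push_cast at this
    linarith
  have h := chord (φ := fun t => Real.log (area (γ t))) hc hm (t := b) ⟨hb, by linarith⟩
  have e : 1 - b = a := by linarith
  simpa [γ, e] using h

lemma supergradient {g : U → ℝ} (hg : g ∈ pos U) : ∃ q : (U → ℝ) →ₗ[ℝ] ℝ,
    ∀ k ∈ pos U, Real.log (area k) ≤ Real.log (area g) + q (k - g) := by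
  set S : Set ((U → ℝ) × ℝ) := {p | p.1 ∈ pos U ∧ p.2 < Real.log (area p.1)}
  have hS : IsOpen S := by
    have hc : ContinuousOn (fun p : (U → ℝ) × ℝ => Real.log (area p.1) - p.2) (pos U ×ˢ univ) :=
      ((logArea_continuousOn hU).comp continuous_fst.continuousOn fun p hp => hp.1).sub
        continuous_snd.continuousOn
    have := hc.isOpen_inter_preimage (isOpen_pos.prod isOpen_univ) (isOpen_Ioi (a := (0 : ℝ)))
    convert this using 1
    ext p
    simp [S, sub_pos]
  obtain ⟨f, hf⟩ := geometric_hahn_banach_open_point (x := (g, Real.log (area g)))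
    (logArea_concave hU).convex_strict_hypograph hS fun h => lt_irrefl _ h.2
  set β := f (0, 1) with hβd
  have hsplit : ∀ (k : U → ℝ) (r : ℝ), f (k, r) = f (k, 0) + r * β := by
    intro k r
    have : (k, r) = (k, (0 : ℝ)) + r • ((0 : U → ℝ), (1 : ℝ)) := by simp
    rw [this, map_add, map_smul, smul_eq_mul]
  have hβ : 0 < β := by
    have := hf (g, Real.log (area g) - 1) ⟨hg, by simp⟩
    rw [hsplit g (_ - 1), hsplit g (Real.log _)] at this
    linarith
  refine ⟨(-β⁻¹) • ((f : (U → ℝ) × ℝ →ₗ[ℝ] ℝ).comp (LinearMap.inl ℝ (U → ℝ) ℝ)), fun k hk => ?_⟩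
  refine le_of_forall_lt fun r hr => ?_
  have := hf (k, r) ⟨hk, hr⟩
  rw [hsplit k r, hsplit g] at this
  simp only [LinearMap.smul_apply, LinearMap.comp_apply, LinearMap.inl_apply, map_sub,
    ContinuousLinearMap.coe_coe, smul_eq_mul]
  have h2 : r < Real.log (area g) + (f (g, 0) - f (k, 0)) * β⁻¹ := by
    rw [← sub_lt_iff_lt_add', ← div_eq_mul_inv, lt_div_iff₀ hβ]; linarith
  linarith

omit hU in
/-- Two sets with the same projection to the first coordinate. -/
lemma slice_add {A B S : Set (Fin 2 → ℝ)} (hA : IsCompact A) (hB : IsCompact B) (hS : IsCompact S)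
    (hproj : ∀ q : Fin 1 → ℝ, (∃ x, (1 : Fin 2).insertNth x q ∈ A) ↔
      ∃ x, (1 : Fin 2).insertNth x q ∈ B)
    {s : ℝ} (s0 : 0 < s) (s1 : s < 1)
    (hsub : ∀ a ∈ A, ∀ b ∈ B, (1 - s) • a + s • b ∈ S) :
    (1 - s) * volume.real A + s * volume.real B ≤ volume.real S := by
  have key : ∀ q : Fin 1 → ℝ,
      ENNReal.ofReal (1 - s) * volume {x | (1 : Fin 2).insertNth x q ∈ A} +
        ENNReal.ofReal s * volume {x | (1 : Fin 2).insertNth x q ∈ B} ≤
      volume {x | (1 : Fin 2).insertNth x q ∈ S} := by
    intro q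
    by_cases hq : ∃ x, (1 : Fin 2).insertNth x q ∈ A
    · have hm : ∀ {X : Set (Fin 2 → ℝ)}, IsCompact X →
          MeasurableSet {x : ℝ | (1 : Fin 2).insertNth x q ∈ X} := fun hX =>
        hX.measurableSet.preimage ((measurable_insertNth (1 : Fin 2)).comp measurable_prodMk_right)
      have hmul : ∀ {c : ℝ}, c ≠ 0 → Measurable fun x : ℝ => c⁻¹ * x := fun _ => by fun_prop
      have e : ∀ {c : ℝ}, 0 < c → ∀ X : Set ℝ,
          volume ((fun x : ℝ => c⁻¹ * x) ⁻¹' X) = ENNReal.ofReal c * volume X := fun hc X => by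
        rw [Real.volume_preimage_mul_left (inv_ne_zero hc.ne'), inv_inv, abs_of_pos hc]
      rw [← e (by linarith : (0 : ℝ) < 1 - s), ← e s0]
      obtain ⟨a0, ha0⟩ := hq
      obtain ⟨b0, hb0⟩ := (hproj q).mp ⟨a0, ha0⟩
      have h1s : (1 - s) ≠ 0 := by linarith
      refine Vale.Agent.P074.volume_add_le ((hm hA).preimage (hmul h1s))
        ((hm hB).preimage (hmul s0.ne')) ⟨(1 - s) * a0, by simpa [inv_mul_cancel_left₀ h1s] using ha0⟩
        ⟨s * b0, by simpa [inv_mul_cancel_left₀ s0.ne'] using hb0⟩ fun a ha b hb => ?_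
      have := hsub _ ha _ hb
      show Fin.insertNth (1 : Fin 2) (a + b) q ∈ S
      convert this using 1
      funext j
      rcases (1 : Fin 2).eq_self_or_eq_succAbove j with rfl | ⟨k, rfl⟩
      · simp [h1s, s0.ne']
      · simp only [Pi.add_apply, Pi.smul_apply, Fin.insertNth_apply_succAbove, smul_eq_mul]; ring
    · have hA0 : {x | (1 : Fin 2).insertNth x q ∈ A} = ∅ :=
        eq_empty_of_forall_notMem fun x hx => hq ⟨x, hx⟩
      have hB0 : {x | (1 : Fin 2).insertNth x q ∈ B} = ∅ :=
        eq_empty_of_forall_notMem fun x hx => hq ((hproj q).mpr ⟨x, hx⟩)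
      simp [hA0, hB0]
  have h := le_trans (le_lintegral_add _ _) (lintegral_mono (μ := volume) key)
  rw [lintegral_const_mul' _ _ ENNReal.ofReal_ne_top, lintegral_const_mul' _ _ ENNReal.ofReal_ne_top,
    ← vol_slice' _ hA.measurableSet, ← vol_slice' _ hB.measurableSet,
    ← vol_slice' _ hS.measurableSet] at h
  have h2 := ENNReal.toReal_mono hS.measure_ne_top h
  rwa [ENNReal.toReal_add (ENNReal.mul_ne_top ENNReal.ofReal_ne_top hA.measure_ne_top)
    (ENNReal.mul_ne_top ENNReal.ofReal_ne_top hB.measure_ne_top), ENNReal.toReal_mul,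
    ENNReal.toReal_mul, ENNReal.toReal_ofReal (by linarith), ENNReal.toReal_ofReal s0.le] at h2

omit hU in
/-- Two symmetric bodies with the same width satisfy a linear inequality. -/
lemma width_add {A B : Set (Fin 2 → ℝ)} (hA : Sym A) (hB : Sym B) {u : Fin 2 → ℝ} (hu : u ≠ 0)
    (hw : h A u = h B u) {s : ℝ} (s0 : 0 < s) (s1 : s < 1) :
    (1 - s) * volume.real A + s * volume.real B ≤ volume.real ((1 - s) • A + s • B) := by
  let T : (Fin 2 → ℝ) →ₗ[ℝ] (Fin 2 → ℝ) := Matrix.toLin' !![u 0, u 1; -u 1, u 0]
  have hT0 : ∀ x, T x 0 = x ⬝ᵥ u := fun x => by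
    simp [T, Matrix.toLin'_apply, Matrix.mulVec, dotProduct, Fin.sum_univ_two]; ring
  have hd : LinearMap.det T = u 0 * u 0 + u 1 * u 1 := by
    simp [T, LinearMap.det_toLin', Matrix.det_fin_two]
  have hdp : 0 < LinearMap.det T := by
    rw [hd]
    by_contra hc
    push Not at hc
    apply hu
    have h0 : u 0 = 0 := mul_self_eq_zero.mp (by nlinarith [mul_self_nonneg (u 1)])
    have h1 : u 1 = 0 := mul_self_eq_zero.mp (by nlinarith [mul_self_nonneg (u 0)])
    funext i; fin_cases i <;> simp [h0, h1]
  have hvol : ∀ X : Set (Fin 2 → ℝ), volume.real (T '' X) = LinearMap.det T * volume.real X := by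
    intro X
    rw [measureReal_def, Measure.addHaar_image_linearMap, ENNReal.toReal_mul,
      ENNReal.toReal_ofReal (abs_nonneg _), abs_of_pos hdp]
    rfl
  have hTc : Continuous T := LinearMap.continuous_on_pi T
  have range : ∀ {X : Set (Fin 2 → ℝ)}, Sym X → ∀ q : Fin 1 → ℝ,
      (∃ x, (1 : Fin 2).insertNth x q ∈ T '' X) ↔ |q 0| ≤ h X u := by
    intro X hX q
    have e0 : (0 : Fin 2) = (1 : Fin 2).succAbove 0 := rfl
    constructor
    · rintro ⟨x, y, hy, hxy⟩
      have : y ⬝ᵥ u = q 0 := by rw [← hT0, hxy, e0, Fin.insertNth_apply_succAbove]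
      rw [← this, abs_le]
      have h2 := le_h hX.body.cpt (hX.neg y hy) u
      rw [neg_dotProduct] at h2
      exact ⟨by linarith, le_h hX.body.cpt hy u⟩
    · intro hq
      obtain ⟨y, hy, e⟩ := exists_h hX.body.cpt (Body.nonempty hX.body) u
      have hp := Body.h_pos hX.body hu
      obtain ⟨l, r⟩ := abs_le.mp hq
      have hz : ((1 + q 0 / h X u) / 2) • y + ((1 - q 0 / h X u) / 2) • (-y) ∈ X := by
        refine hX.body.cvx hy (hX.neg y hy) ?_ ?_ (by ring)
        · have : -1 ≤ q 0 / h X u := by rw [le_div_iff₀ hp]; linarith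
          linarith
        · have : q 0 / h X u ≤ 1 := by rw [div_le_one hp]; exact r
          linarith
      refine ⟨T (((1 + q 0 / h X u) / 2) • y + ((1 - q 0 / h X u) / 2) • (-y)) 1, _, hz, ?_⟩
      funext j
      fin_cases j
      · show T _ 0 = _
        rw [hT0, add_dotProduct, smul_dotProduct, smul_dotProduct, neg_dotProduct, e,
          show (⟨0, by norm_num⟩ : Fin 2) = (1 : Fin 2).succAbove 0 from rfl,
          Fin.insertNth_apply_succAbove]
        simp only [smul_eq_mul]; field_simp; ring
      · exact (Fin.insertNth_apply_same (α := fun _ => ℝ) (1 : Fin 2) _ _).symm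
  have hC : IsCompact ((1 - s) • A + s • B) := (hA.body.cpt.smul _).add (hB.body.cpt.smul _)
  have key := slice_add (A := T '' A) (B := T '' B) (S := T '' ((1 - s) • A + s • B))
    (hA.body.cpt.image hTc) (hB.body.cpt.image hTc) (hC.image hTc)
    (fun q => by rw [range hA, range hB, hw]) s0 s1 (by
      rintro _ ⟨a, ha, rfl⟩ _ ⟨b, hb, rfl⟩
      exact ⟨(1 - s) • a + s • b, ⟨_, ⟨a, ha, rfl⟩, _, ⟨b, hb, rfl⟩, rfl⟩, by simp⟩)
  rw [hvol, hvol, hvol] at key
  nlinarith

/-- Every ratio of widths lies between the roots. -/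
lemma quad {g : U → ℝ} (hg : g ∈ pos U) (q : (U → ℝ) →ₗ[ℝ] ℝ)
    (hq : ∀ k ∈ pos U, Real.log (area k) ≤ Real.log (area g) + q (k - g))
    (hU0 : ∀ u : U, (u : Fin 2 → ℝ) ≠ 0) {K : Set (Fin 2 → ℝ)} (hK : Sym K) (u : U)
    (hM : h (strip g) u = g u) :
    area g * (h K u / g u) ^ 2 - area g * q (fun v => h K v) * (h K u / g u) + volume.real K ≤ 0 := by
  set k : U → ℝ := fun v => h K v
  set t := h K u / g u
  set V := area g
  have hkp : ∀ v : U, 0 < k v := fun v => Body.h_pos hK.body (hU0 v)
  have ht : 0 < t := div_pos (hkp u) (hg u)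
  have hV : 0 < V := area_pos hU hg
  have hMs : Sym (strip g) :=
    ⟨body_strip hU hg, fun x hx v => by rw [neg_dotProduct, abs_neg]; exact hx v⟩
  have htM : Sym (t • strip g) := by
    refine ⟨⟨hMs.body.cpt.smul t, hMs.body.cvx.smul t, ?_⟩, ?_⟩
    · rw [interior_smul₀ ht.ne']; exact ⟨0, hMs.body.zero, smul_zero _⟩
    · rintro _ ⟨x, hx, rfl⟩; exact ⟨-x, hMs.neg x hx, smul_neg _ _⟩
  have hw : h (t • strip g) u = h K u := by
    have e : h (t • strip g) u = t * h (strip g) u := by
      refine le_antisymm (h_le (Body.nonempty htM.body) ?_) ?_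
      · rintro _ ⟨x, hx, rfl⟩
        rw [smul_dotProduct, smul_eq_mul]
        exact mul_le_mul_of_nonneg_left (le_h hMs.body.cpt hx _) ht.le
      · obtain ⟨x, hx, ex⟩ := exists_h hMs.body.cpt (Body.nonempty hMs.body) (u : Fin 2 → ℝ)
        rw [← ex, ← smul_eq_mul, ← smul_dotProduct]
        exact le_h htM.body.cpt (smul_mem_smul_set hx) _
    rw [e, hM, div_mul_cancel₀ _ (hg u).ne']
  set F := fun s : ℝ => ((1 - s) * t) ^ 2 * (V * Real.exp (s / ((1 - s) * t) * q k)) -
    (1 - s) * (t ^ 2 * V) - s * volume.real K with hF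
  have hFpos : ∀ s ∈ Ioo (0 : ℝ) 1, 0 ≤ F s := by
    rintro s ⟨s0, s1⟩
    have h1 := width_add htM hK (hU0 u) hw s0 s1
    have hc : 0 < (1 - s) * t := mul_pos (by linarith) ht
    set ε := s / ((1 - s) * t)
    have hε : 0 < ε := div_pos s0 hc
    have hpos : g + ε • k ∈ pos U := fun v => add_pos (hg v) (mul_pos hε (hkp v))
    have hsub : (1 - s) • (t • strip g) + s • K ⊆ ((1 - s) * t) • strip (g + ε • k) := by
      rintro _ ⟨_, ⟨_, ⟨m, hm, rfl⟩, rfl⟩, _, ⟨y, hy, rfl⟩, rfl⟩
      refine ⟨m + ε • y, fun v => ?_, ?_⟩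
      · rw [add_dotProduct, smul_dotProduct, smul_eq_mul]
        refine (abs_add_le _ _).trans (add_le_add (hm v) ?_)
        rw [abs_mul, abs_of_pos hε, Pi.smul_apply, smul_eq_mul]
        refine mul_le_mul_of_nonneg_left ?_ hε.le
        rw [abs_le]
        have := le_h hK.body.cpt (hK.neg y hy) (v : Fin 2 → ℝ)
        rw [neg_dotProduct] at this
        exact ⟨by linarith, le_h hK.body.cpt hy _⟩
      · simp only [smul_add, smul_smul, ε]
        rw [mul_div_cancel₀ _ hc.ne']
    have h2 := measureReal_mono (μ := volume) hsub ((compact_strip hU _).smul _).measure_ne_top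
    have hv : ∀ {c : ℝ}, 0 < c → ∀ l : U → ℝ, volume.real (c • strip l) = c ^ 2 * area l :=
      fun {c} hc l => by
      rw [measureReal_def, Measure.addHaar_smul_of_nonneg _ hc.le, ENNReal.toReal_mul,
        ENNReal.toReal_ofReal (by positivity), Module.finrank_fin_fun]
      rfl
    rw [hv hc] at h2
    rw [hv ht] at h1
    have h3 : area (g + ε • k) ≤ V * Real.exp (ε * q k) := by
      have := hq _ hpos
      rw [add_sub_cancel_left, map_smul, smul_eq_mul] at this
      calc area (g + ε • k) = Real.exp (Real.log (area (g + ε • k))) :=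
            (Real.exp_log (area_pos hU hpos)).symm
        _ ≤ Real.exp (Real.log V + ε * q k) := Real.exp_le_exp.mpr this
        _ = V * Real.exp (ε * q k) := by rw [Real.exp_add, Real.exp_log hV]
    have h4 := mul_le_mul_of_nonneg_left h3 (sq_nonneg ((1 - s) * t))
    simp only [hF]
    linarith
  have hd : HasDerivAt F (-(t ^ 2 * V) + t * V * q k - volume.real K) 0 := by
    have e1 := (hasDerivAt_id (0 : ℝ)).const_sub 1
    have e2 := (hasDerivAt_id (0 : ℝ)).div (e1.mul_const t) (by simp [ht.ne'])
    have e3 := ((e1.mul_const t).pow 2).mul ((e2.mul_const (q k)).exp.const_mul V)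
    have e4 := (e3.sub (e1.mul_const (t ^ 2 * V))).sub
      ((hasDerivAt_id (0 : ℝ)).mul_const (volume.real K))
    refine (e4.congr_of_eventuallyEq (Filter.Eventually.of_forall fun y => ?_)).congr_deriv ?_
    · simp [hF]
    · simp
      field_simp
      ring
  have hs := hasDerivWithinAt_iff_tendsto_slope.mp (hd.hasDerivWithinAt (s := Ioi 0))
  rw [Set.sdiff_singleton_eq_self (by simp : (0 : ℝ) ∉ Ioi (0 : ℝ))] at hs
  have hle : 0 ≤ -(t ^ 2 * V) + t * V * q k - volume.real K := by
    refine ge_of_tendsto hs ?_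
    filter_upwards [Ioo_mem_nhdsGT (zero_lt_one' ℝ)] with s hs'
    rw [slope_def_field]
    have h0 : F 0 = 0 := by simp [hF]
    rw [h0, sub_zero, sub_zero]
    exact div_nonneg (hFpos s hs') hs'.1.le
  nlinarith

omit hU in
/-- Values between two roots, averaging to their midpoint, have average logarithm at least half that
of their product. -/
lemma log_chord {ι : Type*} (T : Finset ι) (w t : ι → ℝ) {Q P : ℝ} (hP : 0 < P)
    (hw : ∀ i ∈ T, 0 ≤ w i) (hw1 : ∑ i ∈ T, w i = 1) (havg : ∑ i ∈ T, w i * t i = Q / 2)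
    (ht0 : ∀ i ∈ T, 0 < w i → 0 < t i)
    (ht : ∀ i ∈ T, 0 < w i → t i ^ 2 - Q * t i + P ≤ 0) :
    Real.log P / 2 ≤ ∑ i ∈ T, w i * Real.log (t i) := by
  have hex : ∃ i ∈ T, 0 < w i := by
    by_contra hcon
    push Not at hcon
    have : ∑ i ∈ T, w i ≤ 0 := Finset.sum_nonpos hcon
    linarith
  obtain ⟨i0, hi0, hw0⟩ := hex
  have h0 := ht i0 hi0 hw0
  have hdisc : 4 * P ≤ Q ^ 2 := by nlinarith [sq_nonneg (2 * t i0 - Q)]
  set D := Real.sqrt (Q ^ 2 - 4 * P)
  have hD2 : D * D = Q ^ 2 - 4 * P := Real.mul_self_sqrt (by linarith)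
  have hD0 : 0 ≤ D := Real.sqrt_nonneg _
  have hQ : 0 ≤ Q := by
    by_contra hc
    push Not at hc
    nlinarith [ht0 i0 hi0 hw0, h0]
  set a := (Q - D) / 2
  set b := (Q + D) / 2
  have hprod : a * b = P := by simp only [a, b]; nlinarith
  have ha : 0 < a := by
    have : 0 < a * b := hprod ▸ hP
    have hb : 0 ≤ b := by simp only [b]; linarith
    nlinarith
  have hb : 0 < b := by simp only [a, b] at *; linarith
  have hbnd : ∀ i ∈ T, 0 < w i → a ≤ t i ∧ t i ≤ b := fun i hi hwi => by
    have h1 := ht i hi hwi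
    have h2 : (2 * t i - Q) ^ 2 ≤ D ^ 2 := by nlinarith
    have h3 := sq_le_sq.mp h2
    rw [abs_of_nonneg hD0, abs_le] at h3
    simp only [a, b]
    constructor <;> linarith
  have hln : ∀ i ∈ T, w i * (Real.log P / 2 + (if D = 0 then 0 else
      (t i - Q / 2) * ((Real.log b - Real.log a) / D))) ≤ w i * Real.log (t i) := by
    intro i hi
    rcases eq_or_lt_of_le (hw i hi) with hwi | hwi
    · simp [← hwi]
    refine mul_le_mul_of_nonneg_left ?_ hwi.le
    obtain ⟨h1, h2⟩ := hbnd i hi hwi
    have eP : Real.log P = Real.log a + Real.log b := by rw [← hprod, Real.log_mul ha.ne' hb.ne']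
    by_cases hD : D = 0
    · have : t i = a := by simp only [a, b, hD] at h1 h2 ⊢; linarith
      have hab : b = a := by simp only [a, b, hD]; ring
      rw [if_pos hD, eP, this, hab]; linarith
    · rw [if_neg hD, eP]
      set θ := (t i - a) / D with hθ
      have hDp : 0 < D := lt_of_le_of_ne hD0 (Ne.symm hD)
      have hθ0 : 0 ≤ θ := div_nonneg (by linarith) hD0
      have hθ1 : θ ≤ 1 := by
        rw [hθ, div_le_one hDp]; simp only [a, b] at *; linarith
      have hc := strictConcaveOn_log_Ioi.concaveOn.2 (mem_Ioi.mpr ha) (mem_Ioi.mpr hb)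
        (by linarith : 0 ≤ 1 - θ) hθ0 (by ring)
      have e : (1 - θ) * a + θ * b = t i := by
        have e2 : θ * D = t i - a := div_mul_cancel₀ _ hD
        simp only [a, b] at e2 ⊢
        linear_combination e2
      simp only [smul_eq_mul, e] at hc
      refine le_trans (le_of_eq ?_) hc
      simp only [θ, a, b]
      field_simp
      ring
  refine le_trans (le_of_eq ?_) (Finset.sum_le_sum hln)
  split_ifs with hD
  · simp [← Finset.sum_mul, hw1]
  · have e : ∀ i, w i * (Real.log P / 2 + (t i - Q / 2) * ((Real.log b - Real.log a) / D)) =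
        w i * (Real.log P / 2) + (w i * t i - w i * (Q / 2)) * ((Real.log b - Real.log a) / D) :=
      fun i => by ring
    simp only [e, Finset.sum_add_distrib, ← Finset.sum_mul, Finset.sum_sub_distrib, hw1, havg]
    ring

/-- The inequality for finitely many directions. -/
lemma finite_dir (hU0 : ∀ u : U, (u : Fin 2 → ℝ) ≠ 0) {K L : Set (Fin 2 → ℝ)} (hK : Sym K)
    (hL : Sym L) : volume.real K * volume.real L ≤
      area (fun u : U => Real.sqrt (h K u * h L u)) ^ 2 := by
  classical
  set g : U → ℝ := fun u => Real.sqrt (h K u * h L u)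
  have hk : ∀ u : U, 0 < h K u := fun u => Body.h_pos hK.body (hU0 u)
  have hl : ∀ u : U, 0 < h L u := fun u => Body.h_pos hL.body (hU0 u)
  have hg : g ∈ pos U := fun u => Real.sqrt_pos.mpr (mul_pos (hk u) (hl u))
  obtain ⟨q, hq⟩ := supergradient hU hg
  have hqg : q g = 2 := by
    set f := fun c : ℝ => q g * c - 2 * Real.log c
    have hmin : IsLocalMin f 1 := by
      filter_upwards [eventually_gt_nhds (zero_lt_one' ℝ)] with c hc
      have h1 := hq (c • g) fun u => mul_pos hc (hg u)
      rw [area_smul hc, Real.log_mul (pow_ne_zero 2 hc.ne') (area_pos hU hg).ne', Real.log_pow,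
        map_sub, map_smul, smul_eq_mul] at h1
      push_cast at h1
      simp only [f, Real.log_one]
      nlinarith
    have hd : HasDerivAt f (q g - 2) 1 := by
      have := ((hasDerivAt_id (1 : ℝ)).const_mul (q g)).sub
        ((Real.hasDerivAt_log (one_ne_zero' ℝ)).const_mul 2)
      refine (this.congr_of_eventuallyEq (Filter.Eventually.of_forall fun y => ?_)).congr_deriv ?_
      · simp [f]
      · simp
    linarith [hmin.hasDerivAt_eq_zero hd]
  set c : U → ℝ := fun u => q (Pi.single u 1)
  have hexp : ∀ k : U → ℝ, q k = ∑ u, k u * c u := by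
    intro k
    conv_lhs => rw [← Finset.univ_sum_single k]
    rw [map_sum]
    refine Finset.sum_congr rfl fun u _ => ?_
    rw [← smul_eq_mul, ← map_smul, ← Pi.single_smul]
    simp [c]
  have hc0 : ∀ u, 0 ≤ c u := by
    intro u
    have h2 : g + Pi.single u 1 ∈ pos U := fun v => by
      have := hg v
      by_cases h : v = u
      · subst h; simp; linarith
      · simpa [Pi.single_eq_of_ne h] using this
    have h1 := hq _ h2
    have h3 := area_mono hU (k := g) (l := g + Pi.single u 1) fun v => by
      by_cases h : v = u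
      · subst h; simp
      · simp [Pi.single_eq_of_ne h]
    have h4 := Real.log_le_log (area_pos hU hg) h3
    rw [add_sub_cancel_left] at h1
    show 0 ≤ q (Pi.single u 1)
    linarith
  have hact : ∀ u : U, 0 < c u → h (strip g) u = g u := by
    intro u hu
    have hne := body_strip hU hg
    have hle : h (strip g) u ≤ g u := h_le (Body.nonempty hne) fun x hx => (abs_le.mp (hx u)).2
    by_contra hne'
    have hlt : h (strip g) u < g u := lt_of_le_of_ne hle hne'
    set v := max (h (strip g) u) (g u / 2)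
    have hv : v < g u := max_lt hlt (by linarith [hg u])
    have hkp : Function.update g u v ∈ pos U := fun w => by
      by_cases h' : w = u
      · subst h'; simp [v]; right; linarith [hg w]
      · simpa [Function.update_of_ne h'] using hg w
    have he : strip (Function.update g u v) = strip g := by
      ext x
      constructor
      · intro hx w
        by_cases h' : w = u
        · subst h'; exact le_trans (by simpa using hx w) hv.le
        · simpa [Function.update_of_ne h'] using hx w
      · intro hx w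
        by_cases h' : w = u
        · subst h'
          simp only [Function.update_self]
          refine le_trans ?_ (le_max_left _ _)
          rw [abs_le]
          have h2 := le_h hne.cpt (show -x ∈ strip g from fun z => by
            rw [neg_dotProduct, abs_neg]; exact hx z) (w : Fin 2 → ℝ)
          rw [neg_dotProduct] at h2
          exact ⟨by linarith, le_h hne.cpt hx _⟩
        · simpa [Function.update_of_ne h'] using hx w
    have h1 := hq _ hkp
    have hdiff : Function.update g u v - g = Pi.single u (v - g u) := by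
      funext w
      by_cases h' : w = u
      · subst h'; simp
      · simp [Function.update_of_ne h', Pi.single_eq_of_ne h']
    rw [hdiff, area, he, hexp, Finset.sum_eq_single u
      (fun w _ hw => by simp [Pi.single_eq_of_ne hw]) (by simp), Pi.single_eq_same] at h1
    change Real.log (area g) ≤ _ at h1
    nlinarith [mul_pos (sub_pos.mpr hv) hu]
  have hV := area_pos hU hg
  set w : U → ℝ := fun u => c u * g u / 2
  have hw : ∀ u ∈ Finset.univ, 0 ≤ w u := fun u _ => by
    have := hc0 u; have := (hg u).le; positivity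
  have hw1 : ∑ u, w u = 1 := by
    have := hexp g
    rw [hqg] at this
    simp only [w, ← Finset.sum_div]
    rw [div_eq_one_iff_eq two_ne_zero, this]
    exact Finset.sum_congr rfl fun u _ => mul_comm _ _
  have one : ∀ {X : Set (Fin 2 → ℝ)}, Sym X →
      Real.log (volume.real X / area g) / 2 ≤ ∑ u : U, w u * Real.log (h X u / g u) := by
    intro X hX
    refine log_chord (Q := q fun v : U => h X v) Finset.univ w _
      (div_pos hX.body.vol_pos hV) hw hw1 ?_
      (fun u _ _ => div_pos (Body.h_pos hX.body (hU0 u)) (hg u)) fun u _ hu => ?_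
    · rw [hexp, Finset.sum_div]
      refine Finset.sum_congr rfl fun u _ => ?_
      have := (hg u).ne'
      simp only [w]; field_simp
    · have hcu : 0 < c u := by
        rcases eq_or_lt_of_le (hc0 u) with h' | h'
        · simp [w, ← h'] at hu
        · exact h'
      have := quad hU hg q hq hU0 hX u (hact u hcu)
      have e : volume.real X / area g * area g = volume.real X := div_mul_cancel₀ _ hV.ne'
      nlinarith
  have hsum : ∑ u : U, w u * Real.log (h K u / g u) + ∑ u : U, w u * Real.log (h L u / g u) = 0 := by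
    rw [← Finset.sum_add_distrib]
    refine Finset.sum_eq_zero fun u _ => ?_
    rw [← mul_add, ← Real.log_mul (div_pos (hk u) (hg u)).ne' (div_pos (hl u) (hg u)).ne']
    have e2 : g u * g u = h K u * h L u := Real.mul_self_sqrt (mul_pos (hk u) (hl u)).le
    have : h K u / g u * (h L u / g u) = 1 := by
      rw [div_mul_div_comm, e2, div_self (mul_pos (hk u) (hl u)).ne']
    rw [this, Real.log_one, mul_zero]
  have h1 := one hK; have h2 := one hL
  have hKp := hK.body.vol_pos; have hLp := hL.body.vol_pos
  have h3 : Real.log (volume.real K / area g * (volume.real L / area g)) ≤ 0 := by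
    rw [Real.log_mul (by positivity) (by positivity)]; linarith
  rw [Real.log_nonpos_iff (by positivity), div_mul_div_comm, div_le_one (by positivity)] at h3
  nlinarith

omit hU in
lemma continuous_h {n : ℕ} {K : Set (Fin n → ℝ)} (hK : IsCompact K) : Continuous (h K) :=
  hK.continuous_sSup (f := fun u x => x ⬝ᵥ u)
    (show Continuous fun p : (Fin n → ℝ) × (Fin n → ℝ) => ∑ i, p.2 i * p.1 i from
      continuous_finsetSum _ fun i _ =>
        ((continuous_apply i).comp continuous_snd).mul ((continuous_apply i).comp continuous_fst))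

omit hU in
/-- The planar inequality at the midpoint. -/
theorem planar {K L : Set (Fin 2 → ℝ)} (hK : Sym K) (hL : Sym L) :
    volume.real K * volume.real L ≤ volume.real (W K L) ^ 2 := by
  classical
  let d := TopologicalSpace.denseSeq (Fin 2 → ℝ)
  let U : ℕ → Finset (Fin 2 → ℝ) := fun N =>
    ((Finset.range N).image d ∪ Finset.univ.image fun i : Fin 2 => Pi.single i 1).erase 0
  have hUmem : ∀ N (i : Fin 2), (Pi.single i 1 : Fin 2 → ℝ) ∈ U N := fun N i => by simp [U]
  let P : ℕ → Set (Fin 2 → ℝ) := fun N =>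
    strip (fun u : U N => Real.sqrt (h K u * h L u))
  have hP : ∀ N, volume.real K * volume.real L ≤ volume.real (P N) ^ 2 := fun N =>
    finite_dir (hUmem N) (fun u => (Finset.mem_erase.mp u.2).1) hK hL
  have hanti : Antitone P := by
    intro a b hab x hx u
    refine hx ⟨u, ?_⟩
    have := u.2
    simp only [U, Finset.mem_erase, Finset.mem_union, Finset.mem_image, Finset.mem_range] at this ⊢
    exact ⟨this.1, this.2.imp_left fun ⟨j, hj, e⟩ => ⟨j, hj.trans_le hab, e⟩⟩
  have hW : ⋂ N, P N = W K L := by
    ext x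
    simp only [mem_iInter]
    constructor
    · intro hx u
      refine (TopologicalSpace.denseRange_denseSeq (Fin 2 → ℝ)).induction_on (p := fun u => x ⬝ᵥ u ≤
        Real.sqrt (h K u * h L u)) u (isClosed_le ?_ ?_) fun j => ?_
      · exact continuous_finsetSum _ fun i _ => continuous_const.mul (continuous_apply i)
      · exact ((continuous_h hK.body.cpt).mul (continuous_h hL.body.cpt)).sqrt
      · rcases eq_or_ne (d j) 0 with h0 | h0
        · show x ⬝ᵥ d j ≤ _
          rw [h0, dotProduct_zero]; exact Real.sqrt_nonneg _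
        · exact (abs_le.mp (hx (j + 1) ⟨d j, by
            simp only [U, Finset.mem_erase, Finset.mem_union, Finset.mem_image, Finset.mem_range]
            exact ⟨h0, Or.inl ⟨j, by omega, rfl⟩⟩⟩)).2
    · intro hx N u
      rw [abs_le]
      refine ⟨?_, hx u⟩
      have hneg : ∀ {X : Set (Fin 2 → ℝ)}, Sym X → ∀ v, h X (-v) = h X v := by
        intro X hX v
        refine le_antisymm (h_le (Body.nonempty hX.body) fun y hy => ?_)
          (h_le (Body.nonempty hX.body) fun y hy => ?_)
        · rw [dotProduct_neg, ← neg_dotProduct]; exact le_h hX.body.cpt (hX.neg y hy) _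
        · rw [← neg_dotProduct_neg]; exact le_h hX.body.cpt (hX.neg y hy) _
      have := hx (-(u : Fin 2 → ℝ))
      rw [dotProduct_neg, hneg hK, hneg hL] at this
      linarith
  have ht := tendsto_measure_iInter_atTop (μ := volume)
    (fun N => (closed_strip _).measurableSet.nullMeasurableSet) hanti
    ⟨0, (compact_strip (hUmem 0) _).measure_ne_top⟩
  rw [hW] at ht
  have ht2 := ((ENNReal.tendsto_toReal (Sym.w hK hL).cpt.measure_ne_top).comp ht).pow 2
  exact ge_of_tendsto' ht2 hP

end Vale.Agent.P227
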